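import Mathlib

/-!
A sphere meets `O(r ^ (d - 1))` of the `r ^ d` cells of a cubical grid, and a cell at a coarse
scale holds few points of a homogeneous set.
-/

namespace Vale.Agent.P054.Homog

open Finset

variable {d : ℕ}

noncomputable local instance : DecidableEq (EuclideanSpace ℝ (Fin d)) := Classical.decEq _

/-- The cell of a point at scale `r` in the box with corner `o` and side `L`. -/
noncomputable def cell (o : Fin d → ℝ) (L : ℝ) (r : ℕ) (p : EuclideanSpace ℝ (Fin d)) :
    Fin d → ℕ :=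
  fun i => ⌊(p i - o i) * r / L⌋₊

/-- The number of cells that one sphere can meet, up to the factor `r ^ (d - 1)`. -/
def cross (d : ℕ) : ℕ := d * 2 * (2 * d ^ 2 + 3)

lemma abs_sub_le_of_cell {o : Fin d → ℝ} {L : ℝ} (hL : 0 < L) {r : ℕ} (hr : 0 < r)
    {x y : EuclideanSpace ℝ (Fin d)} {j : Fin d} (hx : o j ≤ x j) (hy : o j ≤ y j)
    (h : cell o L r x j = cell o L r y j) : |x j - y j| ≤ L / r := by
  have hr' : (0 : ℝ) < r := by exact_mod_cast hr
  have h1 := Nat.floor_le (show (0 : ℝ) ≤ (x j - o j) * r / L by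
    have : 0 ≤ x j - o j := by linarith
    positivity)
  have h2 := Nat.lt_floor_add_one ((x j - o j) * r / L)
  have h3 := Nat.floor_le (show (0 : ℝ) ≤ (y j - o j) * r / L by
    have : 0 ≤ y j - o j := by linarith
    positivity)
  have h4 := Nat.lt_floor_add_one ((y j - o j) * r / L)
  have e : (⌊(x j - o j) * r / L⌋₊ : ℝ) = ⌊(y j - o j) * r / L⌋₊ := by
    exact_mod_cast h
  have h5 : |(x j - o j) * r / L - (y j - o j) * r / L| ≤ 1 := by
    rw [abs_le]; constructor <;> linarith
  rw [← sub_div, ← sub_mul, sub_sub_sub_cancel_right, abs_div, abs_mul, abs_of_pos hL,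
    abs_of_pos hr', div_le_one hL] at h5
  rwa [le_div_iff₀ hr']

/-- A sphere meets at most `cross d * r ^ (d - 1)` cells. -/
lemma card_cells_sphere_le {o : Fin d → ℝ} {L : ℝ} (hL : 0 < L) {r : ℕ} (hr : 0 < r)
    (p : EuclideanSpace ℝ (Fin d)) {ρ : ℝ} (hρ : 0 < ρ) (S : Finset (EuclideanSpace ℝ (Fin d)))
    (hbox : ∀ x ∈ S, ∀ i, o i ≤ x i ∧ x i < o i + L) (hS : ∀ x ∈ S, dist p x = ρ) :
    (S.image (cell o L r)).card ≤ cross d * r ^ (d - 1) := by
  classical
  have hr' : (0 : ℝ) < r := by exact_mod_cast hr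
  have hsq : ∀ x ∈ S, ∑ j, (x j - p j) ^ 2 = ρ ^ 2 := by
    intro x hx
    rw [← hS x hx, EuclideanSpace.dist_eq,
      Real.sq_sqrt (sum_nonneg fun j _ => sq_nonneg _)]
    refine sum_congr rfl fun j _ => ?_
    rw [Real.dist_eq, sq_abs]
    ring
  let pick : Fin d → Bool → Finset (EuclideanSpace ℝ (Fin d)) := fun i b =>
    S.filter fun x => ρ ^ 2 ≤ d * (x i - p i) ^ 2 ∧ decide (p i ≤ x i) = b
  have hcover : S.image (cell o L r) ⊆
      (univ : Finset (Fin d × Bool)).biUnion fun z => (pick z.1 z.2).image (cell o L r) := by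
    intro c hc
    obtain ⟨x, hx, rfl⟩ := mem_image.1 hc
    obtain ⟨i, hi⟩ : ∃ i, ρ ^ 2 ≤ d * (x i - p i) ^ 2 := by
      by_contra hne
      push Not at hne
      rcases Nat.eq_zero_or_pos d with hd | hd
      · subst hd
        have := hsq x hx
        simp at this
        nlinarith
      · have : Nonempty (Fin d) := ⟨⟨0, hd⟩⟩
        have h1 : ∑ j, (d : ℝ) * (x j - p j) ^ 2 < ∑ _j : Fin d, ρ ^ 2 :=
          sum_lt_sum_of_nonempty univ_nonempty fun j _ => hne j
        rw [← mul_sum, hsq x hx, sum_const, card_univ, Fintype.card_fin, nsmul_eq_mul] at h1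
        exact lt_irrefl _ h1
    exact mem_biUnion.2 ⟨(i, decide (p i ≤ x i)), mem_univ _,
      mem_image.2 ⟨x, mem_filter.2 ⟨hx, hi, rfl⟩, rfl⟩⟩
  refine (card_le_card hcover).trans (card_biUnion_le.trans ((sum_le_card_nsmul _ _
    ((2 * d ^ 2 + 3) * r ^ (d - 1)) fun z _ => ?_).trans (le_of_eq ?_)))
  swap
  · simp [cross]; ring
  obtain ⟨i, b⟩ := z
  set T := (pick i b).image (cell o L r)
  set B := Fintype.piFinset fun j : Fin d => if j = i then ({0} : Finset ℕ) else range r
  have hB : B.card = r ^ (d - 1) := by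
    rw [Fintype.card_piFinset]
    simp [apply_ite Finset.card, prod_ite, filter_ne']
  refine (card_le_mul_card_image_of_maps_to (f := fun c => Function.update c i 0) (t := B) ?_
    (2 * d ^ 2 + 3) ?_).trans (le_of_eq (by rw [hB]))
  · intro c hc
    obtain ⟨x, hx, rfl⟩ := mem_image.1 hc
    refine Fintype.mem_piFinset.2 fun j => ?_
    by_cases hj : j = i
    · subst hj; simp
    · simp only [Function.update_of_ne hj, hj, if_false, mem_range]
      obtain ⟨h1, h2⟩ := hbox x (mem_filter.1 hx).1 j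
      rw [cell, Nat.floor_lt (by have : 0 ≤ x j - o j := by linarith
                                 positivity), div_lt_iff₀ hL]
      nlinarith
  intro c0 _
  by_contra hbig
  push Not at hbig
  obtain ⟨c, hc, c', hc', hfar⟩ : ∃ c ∈ T.filter fun c => Function.update c i 0 = c0,
      ∃ c' ∈ T.filter fun c => Function.update c i 0 = c0, c' i + (d ^ 2 + 1) < c i := by
    by_contra hne
    push Not at hne
    obtain ⟨m, hm, hmin⟩ := exists_min_image (T.filter fun c => Function.update c i 0 = c0)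
      (fun c => c i) (card_pos.1 (by omega))
    have hsub : (T.filter fun c => Function.update c i 0 = c0).card ≤
        (Icc (m i) (m i + (d ^ 2 + 1))).card := by
      refine card_le_card_of_injOn (fun c => c i) (fun c hc => ?_) fun a ha a' ha' e => ?_
      · exact mem_coe.2 (mem_Icc.2 ⟨hmin c hc, hne c hc m hm⟩)
      · funext j
        by_cases hj : j = i
        · subst hj; exact e
        · have := congrFun ((mem_filter.1 ha).2.trans (mem_filter.1 ha').2.symm) j
          simpa [Function.update_of_ne hj] using this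
    rw [Nat.card_Icc] at hsub
    omega
  obtain ⟨⟨hc, hcu⟩, ⟨hc', hcu'⟩⟩ := And.intro (mem_filter.1 hc) (mem_filter.1 hc')
  obtain ⟨x, hx, rfl⟩ := mem_image.1 hc
  obtain ⟨y, hy, rfl⟩ := mem_image.1 hc'
  obtain ⟨hxS, hxi, hxb⟩ := mem_filter.1 hx
  obtain ⟨hyS, hyi, hyb⟩ := mem_filter.1 hy
  -- the other coordinates differ by at most one cell
  have hj : ∀ j, j ≠ i → |x j - y j| ≤ L / r := fun j hj =>
    abs_sub_le_of_cell hL hr (hbox x hxS j).1 (hbox y hyS j).1 (by
      have := congrFun (hcu.trans hcu'.symm) j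
      simpa [Function.update_of_ne hj] using this)
  have hab : ∀ (z : EuclideanSpace ℝ (Fin d)), z ∈ S → ∀ j, |z j - p j| ≤ ρ := by
    intro z hz j
    refine abs_le_of_sq_le_sq ?_ hρ.le
    rw [← hsq z hz]
    exact single_le_sum (f := fun j => (z j - p j) ^ 2) (fun j _ => sq_nonneg _) (mem_univ j)
  set a := |x i - p i| with ha
  set a' := |y i - p i| with ha'
  have hdiff : |a ^ 2 - a' ^ 2| ≤ d * (L / r * (2 * ρ)) := by
    rw [ha, ha', sq_abs, sq_abs]
    have e1 := add_sum_erase univ (fun j => (x j - p j) ^ 2) (mem_univ i)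
    have e2 := add_sum_erase univ (fun j => (y j - p j) ^ 2) (mem_univ i)
    rw [hsq x hxS] at e1
    rw [hsq y hyS] at e2
    have e : (x i - p i) ^ 2 - (y i - p i) ^ 2 =
        ∑ j ∈ univ.erase i, ((y j - p j) ^ 2 - (x j - p j) ^ 2) := by
      rw [sum_sub_distrib]; linarith
    rw [e]
    refine (abs_sum_le_sum_abs _ _).trans ((sum_le_card_nsmul _ _ (L / r * (2 * ρ))
      fun j hjm => ?_).trans ?_)
    · rw [sq_sub_sq, abs_mul, mul_comm]
      refine mul_le_mul ?_ ?_ (abs_nonneg _) (by positivity)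
      · rw [sub_sub_sub_cancel_right, abs_sub_comm]
        exact hj j (ne_of_mem_erase hjm)
      · refine (abs_add_le _ _).trans ?_
        linarith [hab x hxS j, hab y hyS j]
    · rw [nsmul_eq_mul]
      refine mul_le_mul_of_nonneg_right ?_ (by positivity)
      exact_mod_cast (card_erase_le.trans (by simp))
  have hsign : |x i - y i| = |a - a'| := by
    rw [ha, ha']
    cases b
    · rw [decide_eq_false_iff_not, not_le] at hxb hyb
      rw [abs_of_neg (by linarith : x i - p i < 0), abs_of_neg (by linarith : y i - p i < 0),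
        abs_sub_comm]
      congr 1; ring
    · rw [decide_eq_true_iff] at hxb hyb
      rw [abs_of_nonneg (by linarith : 0 ≤ x i - p i), abs_of_nonneg (by linarith : 0 ≤ y i - p i)]
      congr 1; ring
  have hlow : ∀ s : ℝ, ρ ^ 2 ≤ (d : ℝ) * s ^ 2 → ρ ≤ d * |s| := by
    intro s hs
    have hd1 : (1 : ℝ) ≤ d := by
      exact_mod_cast (show 1 ≤ d from Fin.pos i)
    refine (abs_le_of_sq_le_sq' ?_ (by positivity)).2
    rw [mul_pow, sq_abs]
    nlinarith [mul_le_mul_of_nonneg_left hd1 (by positivity : 0 ≤ (d : ℝ) * s ^ 2)]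
  have hclose : |x i - y i| ≤ d ^ 2 * (L / r) := by
    rw [hsign]
    have h1 := hlow _ hxi
    have h2 := hlow _ hyi
    rw [← ha] at h1
    rw [← ha'] at h2
    have h3 : |a - a'| * (a + a') ≤ d * (L / r * (2 * ρ)) := by
      refine le_trans (le_of_eq ?_) hdiff
      rw [sq_sub_sq, abs_mul, mul_comm, abs_of_nonneg (by positivity : 0 ≤ a + a')]
    have h4 : |a - a'| * (2 * ρ) ≤ d * (|a - a'| * (a + a')) := by
      refine le_trans (mul_le_mul_of_nonneg_left
        (show 2 * ρ ≤ d * (a + a') by linarith) (abs_nonneg _)) (le_of_eq ?_)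
      ring
    have h5 := h4.trans (mul_le_mul_of_nonneg_left h3 (Nat.cast_nonneg d))
    refine le_of_mul_le_mul_right (h5.trans (le_of_eq ?_)) (by linarith : 0 < 2 * ρ)
    ring
  have hfl : ((x i - o i) * r / L) < ((y i - o i) * r / L) + (d ^ 2 + 1 : ℕ) := by
    rw [← sub_lt_iff_lt_add', ← sub_div, ← sub_mul, sub_sub_sub_cancel_right]
    refine lt_of_le_of_lt ?_ (show ((d ^ 2 : ℕ) : ℝ) < (d ^ 2 + 1 : ℕ) by exact_mod_cast Nat.lt_succ_self _)
    rw [div_le_iff₀ hL, ← le_div_iff₀ hr']
    refine (le_abs_self _).trans (hclose.trans (le_of_eq ?_))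
    push_cast
    ring
  have hy0 : (0 : ℝ) ≤ (y i - o i) * r / L := by
    have : 0 ≤ y i - o i := by linarith [(hbox y hyS i).1]
    positivity
  have := Nat.floor_mono hfl.le
  rw [Nat.floor_add_natCast hy0] at this
  simp only [cell] at hfar
  omega

/-- A cell at scale `r ≤ g` holds at most `K (g / r + 1) ^ d` points. -/
lemma card_cell_le {o : Fin d → ℝ} {L : ℝ} (hL : 0 < L) {g r : ℕ} (hg : 0 < g) (hr : 0 < r)
    {K : ℕ} (P : Finset (EuclideanSpace ℝ (Fin d)))
    (hbox : ∀ p ∈ P, ∀ i, o i ≤ p i)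
    (hK : ∀ a : Fin d → ℝ, (P.filter fun p : EuclideanSpace ℝ (Fin d) =>
      ∀ i, a i ≤ p i ∧ p i < a i + L / g).card ≤ K) (c : Fin d → ℕ) :
    (P.filter fun p => cell o L r p = c).card ≤ K * (g / r + 1) ^ d := by
  classical
  have hr' : (0 : ℝ) < r := by exact_mod_cast hr
  have hg' : (0 : ℝ) < g := by exact_mod_cast hg
  set w := g / r + 1 with hw
  have hgw : (g : ℝ) ≤ r * w := by
    exact_mod_cast (Nat.lt_mul_div_succ g hr).le
  let f : EuclideanSpace ℝ (Fin d) → Fin d → ℕ := fun p i =>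
    ⌊(p i - (o i + c i * (L / r))) * g / L⌋₊
  refine (card_le_mul_card_image_of_maps_to (f := f) (t := Fintype.piFinset fun _ => range w) ?_ K
    ?_).trans (le_of_eq (by simp))
  · intro p hp
    obtain ⟨hpP, hc⟩ := mem_filter.1 hp
    refine Fintype.mem_piFinset.2 fun i => ?_
    rw [mem_range]
    have h1 := Nat.lt_floor_add_one ((p i - o i) * r / L)
    have e : (⌊(p i - o i) * r / L⌋₊ : ℝ) = c i := by
      exact_mod_cast congrFun hc i
    rw [e, div_lt_iff₀ hL] at h1
    refine lt_of_le_of_lt (Nat.floor_mono (?_ : _ ≤ ((p i - o i) * r / L - c i) * (g / r)))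
      ((Nat.floor_lt' (Nat.succ_ne_zero _)).2 ?_)
    · refine le_of_eq ?_
      field_simp
      ring
    · have h2 : (p i - o i) * r / L - c i < 1 := by
        rw [sub_lt_iff_lt_add', div_lt_iff₀ hL]; linarith
      refine lt_of_lt_of_le (mul_lt_of_lt_one_left (by positivity) h2) ?_
      rw [div_le_iff₀ hr']
      linarith
  intro v _
  refine le_trans (card_le_card ?_) (hK fun i => o i + c i * (L / r) + v i * (L / g))
  intro p hp
  rw [filter_filter] at hp
  obtain ⟨hpP, hc, hv⟩ := mem_filter.1 hp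
  refine mem_filter.2 ⟨hpP, fun i => ?_⟩
  have h0 : (c i : ℝ) ≤ (p i - o i) * r / L := by
    rw [← congrFun hc i]
    refine Nat.floor_le ?_
    have : 0 ≤ p i - o i := by linarith [hbox p hpP i]
    positivity
  have h0' : (0 : ℝ) ≤ (p i - (o i + c i * (L / r))) * g / L := by
    rw [le_div_iff₀ hL] at h0
    have : 0 ≤ p i - (o i + c i * (L / r)) := by
      have h := div_le_div_of_nonneg_right h0 hr'.le
      rw [mul_div_cancel_right₀ _ hr'.ne'] at h
      rw [← mul_div_assoc]
      linarith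
    positivity
  have h1 := Nat.floor_le h0'
  have h2 := Nat.lt_floor_add_one ((p i - (o i + c i * (L / r))) * g / L)
  have e : (⌊(p i - (o i + c i * (L / r))) * g / L⌋₊ : ℝ) = v i := by
    exact_mod_cast congrFun hv i
  rw [e, le_div_iff₀ hL] at h1
  rw [e, div_lt_iff₀ hL] at h2
  constructor
  · have h := div_le_div_of_nonneg_right h1 hg'.le
    rw [mul_div_cancel_right₀ _ hg'.ne', mul_div_assoc] at h
    linarith
  · have h := div_lt_div_of_pos_right h2 hg'
    rw [mul_div_cancel_right₀ _ hg'.ne', add_mul, one_mul, add_div, mul_div_assoc] at h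
    linarith

end Vale.Agent.P054.Homog
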