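import Vale.Agent.P054.Homog.Cells

/-!
Pinned distances of homogeneous sets with few points on a line: the pairs `(pin, point)` are split
over spheres and cells, and `d` points of one cell have at most `R` common centres.
-/

namespace Vale.Agent.P054.Homog

open Finset Module

variable {d : ℕ}

noncomputable local instance : DecidableEq (EuclideanSpace ℝ (Fin d)) := Classical.decEq _

/-- The points equidistant from an affinely independent `d`-tuple lie on a line. -/
lemma collinear_equidistant {f : Fin d → EuclideanSpace ℝ (Fin d)} (hd : 1 ≤ d)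
    (hf : AffineIndependent ℝ f) (s : Set (EuclideanSpace ℝ (Fin d)))
    (hs : ∀ p ∈ s, ∀ i j, dist p (f i) = dist p (f j)) : Collinear ℝ s := by
  rcases s.eq_empty_or_nonempty with rfl | ⟨p₀, hp₀⟩
  · exact collinear_empty ℝ _
  set W := vectorSpan ℝ (Set.range f) with hW
  have hfin : finrank ℝ W = d - 1 :=
    hf.finrank_vectorSpan (by rw [Fintype.card_fin]; omega)
  have hperp : finrank ℝ Wᗮ = 1 := by
    refine Submodule.finrank_add_finrank_orthogonal' ?_
    rw [hfin, finrank_euclideanSpace_fin]; omega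
  rw [collinear_iff_finrank_le_one]
  refine le_trans (Submodule.finrank_mono (?_ : vectorSpan ℝ s ≤ Wᗮ)) hperp.le
  rw [vectorSpan_eq_span_vsub_set_right ℝ hp₀, Submodule.span_le]
  rintro _ ⟨p, hp, rfl⟩
  simp only [SetLike.mem_coe, vsub_eq_sub]
  rw [Submodule.mem_orthogonal]
  intro w hw
  rw [hW, vectorSpan_range_eq_span_range_vsub_right ℝ f ⟨0, hd⟩] at hw
  refine Submodule.span_induction (p := fun w _ => inner ℝ w (p - p₀) = 0) ?_ ?_ ?_ ?_ hw
  · rintro _ ⟨i, rfl⟩
    have h1 := hs p hp i ⟨0, hd⟩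
    have h2 := hs p₀ hp₀ i ⟨0, hd⟩
    rw [← sq_eq_sq₀ dist_nonneg dist_nonneg, dist_eq_norm, dist_eq_norm,
      norm_sub_sq_real, norm_sub_sq_real] at h1 h2
    simp only [vsub_eq_sub, inner_sub_left, inner_sub_right]
    rw [real_inner_comm p (f i), real_inner_comm p (f ⟨0, hd⟩), real_inner_comm p₀ (f i),
      real_inner_comm p₀ (f ⟨0, hd⟩)]
    linarith
  · simp
  · intro a b _ _ ha hb; rw [inner_add_left, ha, hb, add_zero]
  · intro c a _ ha; rw [inner_smul_left, ha, mul_zero]

lemma le_add_descFactorial {d : ℕ} (hd : 1 ≤ d) (m : ℕ) : m ≤ 2 * d + 2 ^ d * m.descFactorial d := by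
  rcases lt_or_ge m (2 * d) with h | h
  · omega
  have h1 : 2 ^ d * (m + 1 - d) ^ d ≤ 2 ^ d * m.descFactorial d :=
    Nat.mul_le_mul_left _ (Nat.pow_sub_le_descFactorial m d)
  rw [← mul_pow] at h1
  have h2 : 2 * (m + 1 - d) ≤ (2 * (m + 1 - d)) ^ d := Nat.le_self_pow (by omega) _
  omega

lemma card_inj_tuples (S : Finset (EuclideanSpace ℝ (Fin d))) :
    ((Fintype.piFinset fun _ : Fin d => S).filter Function.Injective).card =
      S.card.descFactorial d := by
  classical
  have h : ((Fintype.piFinset fun _ : Fin d => S).filter Function.Injective) =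
      (univ : Finset (Fin d ↪ S)).map
        ⟨fun e i => (e i : EuclideanSpace ℝ (Fin d)), fun e e' h =>
          DFunLike.ext _ _ fun i => Subtype.ext (congrFun h i)⟩ := by
    ext f
    simp only [mem_filter, Fintype.mem_piFinset, mem_map, mem_univ, true_and]
    constructor
    · rintro ⟨hS, hf⟩
      exact ⟨⟨fun i => ⟨f i, hS i⟩, fun i j h => hf (congrArg Subtype.val h)⟩, rfl⟩
    · rintro ⟨e, rfl⟩
      exact ⟨fun i => (e i).2, fun i j h => e.injective (Subtype.ext h)⟩
  rw [h, card_map, card_univ, Fintype.card_embedding_eq, Fintype.card_coe, Fintype.card_fin]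

variable {o : Fin d → ℝ} {L : ℝ} {P : Finset (EuclideanSpace ℝ (Fin d))} {R : ℕ}

/-- The incidences at scale `r`. -/
lemma incidences (hd : 1 ≤ d) (hL : 0 < L) {r : ℕ} (hr : 0 < r)
    (hbox : ∀ p ∈ P, ∀ i, o i ≤ p i ∧ p i < o i + L)
    (hline : ∀ s ⊆ P, Collinear ℝ (s : Set (EuclideanSpace ℝ (Fin d))) → s.card ≤ R)
    (hind : ∀ f : Fin d → EuclideanSpace ℝ (Fin d), Function.Injective f → (∀ i, f i ∈ P) →
      ∀ p ∈ P, (∀ i j, dist p (f i) = dist p (f j)) → AffineIndependent ℝ f)
    {D M : ℕ} (hD : ∀ p ∈ P, ((P.erase p).image fun q => dist p q).card ≤ D)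
    (hM : ∀ c, (P.filter fun p => cell o L r p = c).card ≤ M) :
    P.card * (P.card - 1) ≤
      P.card * (D * (2 * d * (cross d * r ^ (d - 1)))) + 2 ^ d * (R * (r ^ d * M ^ d)) := by
  classical
  let sph : EuclideanSpace ℝ (Fin d) → ℝ → Finset (EuclideanSpace ℝ (Fin d)) := fun p ρ =>
    (P.erase p).filter fun q => dist p q = ρ
  let box : EuclideanSpace ℝ (Fin d) → ℝ → (Fin d → ℕ) → Finset (EuclideanSpace ℝ (Fin d)) :=
    fun p ρ c => (sph p ρ).filter fun q => cell o L r q = c
  let tup : EuclideanSpace ℝ (Fin d) → ℝ → (Fin d → ℕ) →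
      Finset (Fin d → EuclideanSpace ℝ (Fin d)) :=
    fun p ρ c => (Fintype.piFinset fun _ : Fin d => box p ρ c).filter Function.Injective
  let F := (Fintype.piFinset fun _ : Fin d => P).filter fun f =>
    Function.Injective f ∧ ∀ i j, cell o L r (f i) = cell o L r (f j)
  let A : EuclideanSpace ℝ (Fin d) → Finset (Fin d → EuclideanSpace ℝ (Fin d)) :=
    fun p => F.filter fun f => ∀ i j, dist p (f i) = dist p (f j)
  set i₀ : Fin d := ⟨0, hd⟩
  have hpin : ∀ p ∈ P, P.card - 1 ≤
      D * (2 * d * (cross d * r ^ (d - 1))) + 2 ^ d * (A p).card := by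
    intro p hp
    set Dp := (P.erase p).image fun q => dist p q with hDp
    have hsum : ∑ ρ ∈ Dp, ∑ c ∈ (sph p ρ).image (cell o L r), (tup p ρ c).card ≤ (A p).card := by
      rw [sum_sigma', ← card_sigma]
      refine card_le_card_of_injOn (fun z => z.2) ?_ ?_
      · rintro ⟨⟨ρ, c⟩, f⟩ hz
        obtain ⟨hs, hinj⟩ := mem_filter.1 (mem_sigma.1 hz).2
        have hm : ∀ i, f i ∈ box p ρ c := Fintype.mem_piFinset.1 hs
        simp only [box, sph, mem_filter, mem_erase] at hm
        refine mem_coe.2 (mem_filter.2 ⟨mem_filter.2 ⟨Fintype.mem_piFinset.2 fun i => (hm i).1.1.2,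
          hinj, fun i j => (hm i).2.trans (hm j).2.symm⟩, fun i j => (hm i).1.2.trans (hm j).1.2.symm⟩)
      · rintro ⟨⟨ρ, c⟩, f⟩ hz ⟨⟨ρ', c'⟩, f'⟩ hz' (rfl : f = f')
        obtain ⟨hs, -⟩ := mem_filter.1 (mem_sigma.1 hz).2
        obtain ⟨hs', -⟩ := mem_filter.1 (mem_sigma.1 hz').2
        have h1 : f i₀ ∈ box p ρ c := Fintype.mem_piFinset.1 hs i₀
        have h2 : f i₀ ∈ box p ρ' c' := Fintype.mem_piFinset.1 hs' i₀
        simp only [box, sph, mem_filter] at h1 h2
        obtain rfl : ρ = ρ' := h1.1.2.symm.trans h2.1.2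
        obtain rfl : c = c' := h1.2.symm.trans h2.2
        rfl
    have hone : ∀ ρ ∈ Dp, (sph p ρ).card ≤ 2 * d * (cross d * r ^ (d - 1)) +
        2 ^ d * ∑ c ∈ (sph p ρ).image (cell o L r), (tup p ρ c).card := by
      intro ρ hρ
      obtain ⟨q, hq, rfl⟩ := mem_image.1 hρ
      rw [card_eq_sum_card_image (cell o L r) (sph p (dist p q))]
      refine (sum_le_sum (g := fun c => 2 * d + 2 ^ d * (tup p (dist p q) c).card)
        fun c _ => ?_).trans ?_
      · simp only [tup, card_inj_tuples]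
        exact le_add_descFactorial hd _
      rw [sum_add_distrib, sum_const, smul_eq_mul, ← mul_sum, mul_comm _ (2 * d)]
      refine Nat.add_le_add_right (Nat.mul_le_mul_left _ ?_) _
      refine card_cells_sphere_le hL hr p (dist_pos.2 (ne_of_mem_erase hq).symm) _ ?_ ?_
      · intro x hx
        exact hbox x (mem_of_mem_erase (mem_filter.1 hx).1)
      · exact fun x hx => (mem_filter.1 hx).2
    rw [← card_erase_of_mem hp, card_eq_sum_card_image (fun q => dist p q) (P.erase p)]
    refine (sum_le_sum hone).trans ?_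
    rw [sum_add_distrib, sum_const, smul_eq_mul, ← mul_sum]
    exact Nat.add_le_add (Nat.mul_le_mul_right _ (hD p hp)) (Nat.mul_le_mul_left _ hsum)
  have hA : ∑ p ∈ P, (A p).card ≤ R * (r ^ d * M ^ d) := by
    simp only [A, card_filter]
    rw [sum_comm]
    refine (sum_le_card_nsmul _ _ R fun f hf => ?_).trans ?_
    · obtain ⟨hfP, hfi, -⟩ := mem_filter.1 hf
      rw [← card_filter]
      rcases (P.filter fun p => ∀ i j, dist p (f i) = dist p (f j)).eq_empty_or_nonempty with
        he | ⟨p, hp⟩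
      · simp [he]
      · refine hline _ (filter_subset _ _) (collinear_equidistant hd ?_ _ fun x hx =>
          (mem_filter.1 hx).2)
        exact hind f hfi (Fintype.mem_piFinset.1 hfP) p (mem_filter.1 hp).1 (mem_filter.1 hp).2
    rw [smul_eq_mul, mul_comm]
    refine Nat.mul_le_mul_left _ ((card_le_card (t := (Fintype.piFinset fun _ : Fin d =>
      range r).biUnion fun c => Fintype.piFinset fun _ : Fin d => P.filter fun q =>
        cell o L r q = c) ?_).trans (card_biUnion_le.trans ?_))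
    · intro f hf
      obtain ⟨hfP, -, hfc⟩ := mem_filter.1 hf
      refine mem_biUnion.2 ⟨cell o L r (f i₀), Fintype.mem_piFinset.2 fun i => ?_,
        Fintype.mem_piFinset.2 fun i => mem_filter.2 ⟨Fintype.mem_piFinset.1 hfP i, hfc i i₀⟩⟩
      obtain ⟨h1, h2⟩ := hbox _ (Fintype.mem_piFinset.1 hfP i₀) i
      rw [mem_range, cell, Nat.floor_lt (by have : 0 ≤ f i₀ i - o i := by linarith
                                            positivity), div_lt_iff₀ hL]
      have hr' : (0 : ℝ) < r := by exact_mod_cast hr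
      nlinarith
    · refine (sum_le_card_nsmul _ _ (M ^ d) fun c _ => ?_).trans (le_of_eq (by simp))
      rw [Fintype.card_piFinset, prod_const, card_univ, Fintype.card_fin]
      exact Nat.pow_le_pow_left (hM c) _
  have := sum_le_sum hpin
  rw [sum_const, smul_eq_mul, sum_add_distrib, sum_const, smul_eq_mul, ← mul_sum] at this
  exact this.trans (Nat.add_le_add_left (Nat.mul_le_mul_left _ hA) _)

/-- Homogeneous sets with at most `R` points on a line have a pin with `R D ^ d ≥ c n ^ 2`. -/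
theorem exists_pin (hd : 2 ≤ d) (K : ℕ) : ∃ C : ℕ, 0 < C ∧
    ∀ (P : Finset (EuclideanSpace ℝ (Fin d))) (o : Fin d → ℝ) (L : ℝ) (g R : ℕ),
      2 ≤ P.card → 0 < L → 1 ≤ g → g ^ d ≤ P.card →
      (∀ p ∈ P, ∀ i, o i ≤ p i ∧ p i < o i + L) →
      (∀ a : Fin d → ℝ, (P.filter fun p : EuclideanSpace ℝ (Fin d) =>
        ∀ i, a i ≤ p i ∧ p i < a i + L / g).card ≤ K) →
      (∀ s ⊆ P, Collinear ℝ (s : Set (EuclideanSpace ℝ (Fin d))) → s.card ≤ R) →
      (∀ f : Fin d → EuclideanSpace ℝ (Fin d), Function.Injective f → (∀ i, f i ∈ P) →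
        ∀ p ∈ P, (∀ i j, dist p (f i) = dist p (f j)) → AffineIndependent ℝ f) →
      ∃ p ∈ P, P.card ^ 2 ≤ C * R * ((P.erase p).image fun q => dist p q).card ^ d := by
  classical
  set C₁ := 8 * d * cross d + 1 with hC₁
  set K₂ := K * 2 ^ d with hK₂
  set C₃ := 2 ^ (d - 1) * C₁ + 2 * K * K₂ * cross d * K + 1 with hC₃
  refine ⟨C₁ ^ 2 + 4 * 2 ^ d * K₂ ^ d * C₃ ^ d, by positivity, ?_⟩
  intro P o L g R hn hL hg hgd hbox hK hline hind
  set n := P.card with hndef
  obtain ⟨p₀, hp₀, hmax⟩ := exists_max_image P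
    (fun p => ((P.erase p).image fun q => dist p q).card) (card_pos.1 (by omega))
  refine ⟨p₀, hp₀, ?_⟩
  set D := ((P.erase p₀).image fun q => dist p₀ q).card with hDdef
  have hD1 : 1 ≤ D := by
    refine card_pos.2 (Nonempty.image ?_ _)
    rw [← card_pos, card_erase_of_mem hp₀]; omega
  have hR : 1 ≤ R := by
    have := hline {p₀} (singleton_subset_iff.2 hp₀) (by
      rw [coe_singleton]; exact collinear_singleton ℝ p₀)
    simpa using this
  -- a cell at scale `r`
  have hcell : ∀ r, 0 < r → r ≤ g → ∀ c, (P.filter fun p => cell o L r p = c).card ≤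
      K * (g / r + 1) ^ d := fun r hr _ c =>
    card_cell_le hL hg hr P (fun p hp i => (hbox p hp i).1) hK c
  have hscale : ∀ r, 0 < r → r ≤ g → r ^ d * (g / r + 1) ^ d ≤ 2 ^ d * g ^ d := by
    intro r hr hrg
    rw [← mul_pow, ← mul_pow]
    refine Nat.pow_le_pow_left ?_ _
    have := Nat.mul_div_le g r
    rw [mul_add, mul_one]
    omega
  have hnK : n ≤ K * g ^ d := by
    refine (card_le_mul_card_image_of_maps_to (f := cell o L g)
      (t := Fintype.piFinset fun _ => range g) ?_ K ?_).trans (le_of_eq (by simp))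
    · intro p hp
      refine Fintype.mem_piFinset.2 fun i => ?_
      obtain ⟨h1, h2⟩ := hbox p hp i
      have hg' : (0 : ℝ) < g := by exact_mod_cast hg
      rw [mem_range, cell, Nat.floor_lt (by have : 0 ≤ p i - o i := by linarith
                                            positivity), div_lt_iff₀ hL]
      nlinarith
    · intro c _
      refine (card_le_card ?_).trans (hK fun i => o i + c i * (L / g))
      intro p hp
      obtain ⟨hpP, hc⟩ := mem_filter.1 hp
      refine mem_filter.2 ⟨hpP, fun i => ?_⟩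
      have hg' : (0 : ℝ) < g := by exact_mod_cast hg
      have h0 : (0 : ℝ) ≤ (p i - o i) * g / L := by
        have : 0 ≤ p i - o i := by linarith [(hbox p hpP i).1]
        positivity
      have h1 := Nat.floor_le h0
      have h2 := Nat.lt_floor_add_one ((p i - o i) * g / L)
      have e : (⌊(p i - o i) * g / L⌋₊ : ℝ) = c i := by exact_mod_cast congrFun hc i
      rw [e, le_div_iff₀ hL] at h1
      rw [e, div_lt_iff₀ hL] at h2
      constructor
      · have h := div_le_div_of_nonneg_right h1 hg'.le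
        rw [mul_div_cancel_right₀ _ hg'.ne', mul_div_assoc] at h
        linarith
      · have h := div_lt_div_of_pos_right h2 hg'
        rw [mul_div_cancel_right₀ _ hg'.ne', add_mul, one_mul, add_div, mul_div_assoc] at h
        linarith
  -- trivial case
  rcases Nat.lt_or_ge n (C₁ * D) with hbigD | hDsmall
  · calc n ^ 2 ≤ (C₁ * D) ^ 2 := Nat.pow_le_pow_left hbigD.le 2
      _ = C₁ ^ 2 * 1 * D ^ 2 := by ring
      _ ≤ _ := by
        refine Nat.mul_le_mul (Nat.mul_le_mul (Nat.le_add_right _ _) hR) ?_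
        exact Nat.pow_le_pow_right hD1 hd
  -- choose the scale
  set r := Nat.findGreatest (fun r => C₁ * D * r ^ (d - 1) ≤ n) g with hrdef
  have hr1 : 1 ≤ r := Nat.le_findGreatest hg (by simpa using hDsmall)
  have hrg : r ≤ g := Nat.findGreatest_le g
  have hrn : C₁ * D * r ^ (d - 1) ≤ n := Nat.findGreatest_spec (P := fun r => C₁ * D * r ^ (d - 1) ≤ n)
    hg (by simpa using hDsmall)
  have hC₃D : n ≤ C₃ * D * r ^ (d - 1) := by
    rcases lt_or_eq_of_le hrg with hlt | heq
    · have h := Nat.findGreatest_is_greatest (P := fun r => C₁ * D * r ^ (d - 1) ≤ n)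
        (Nat.lt_succ_self r) hlt
      push Not at h
      refine h.le.trans ?_
      calc C₁ * D * (r + 1) ^ (d - 1) ≤ C₁ * D * (2 * r) ^ (d - 1) :=
            Nat.mul_le_mul_left _ (Nat.pow_le_pow_left (by omega) _)
        _ = 2 ^ (d - 1) * C₁ * (D * r ^ (d - 1)) := by rw [mul_pow]; ring
        _ ≤ C₃ * (D * r ^ (d - 1)) := Nat.mul_le_mul_right _ (by omega)
        _ = _ := by ring
    · -- at the finest scale every sphere carries few points
      have hM : ∀ c, (P.filter fun p => cell o L g p = c).card ≤ K₂ := fun c =>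
        (hcell g hg le_rfl c).trans (Nat.mul_le_mul_left _ (Nat.pow_le_pow_left (by
          rw [Nat.div_self hg]) _))
      have hsph : n - 1 ≤ D * (cross d * g ^ (d - 1) * K₂) := by
        rw [← card_erase_of_mem hp₀, card_eq_sum_card_image (fun q => dist p₀ q) (P.erase p₀)]
        refine (sum_le_card_nsmul _ _ _ fun ρ hρ => ?_).trans (le_of_eq (smul_eq_mul _ _))
        obtain ⟨q, hq, rfl⟩ := mem_image.1 hρ
        refine (card_le_mul_card_image_of_maps_to (f := cell o L g)
          (t := ((P.erase p₀).filter fun x => dist p₀ x = dist p₀ q).image (cell o L g))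
          (fun x hx => mem_image_of_mem _ hx) K₂ fun c _ => ?_).trans ?_
        · refine le_trans (card_le_card ?_) (hM c)
          intro x hx
          simp only [mem_filter, mem_erase] at hx ⊢
          exact ⟨hx.1.1.2, hx.2⟩
        · rw [mul_comm _ K₂]
          refine Nat.mul_le_mul_left _ (card_cells_sphere_le hL hg p₀
            (dist_pos.2 (ne_of_mem_erase hq).symm) _ ?_ fun x hx => (mem_filter.1 hx).2)
          intro x hx
          exact hbox x (mem_of_mem_erase (mem_filter.1 hx).1)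
      have hgs : g ^ d = g * g ^ (d - 1) := by
        rw [← pow_succ', Nat.sub_add_cancel (by omega)]
      have h1 : g * g ^ (d - 1) ≤ 2 * K₂ * cross d * D * g ^ (d - 1) := by
        rw [← hgs]
        have : 2 * (D * (cross d * g ^ (d - 1) * K₂)) = 2 * K₂ * cross d * D * g ^ (d - 1) := by
          ring
        omega
      have h2 := Nat.le_of_mul_le_mul_right h1 (pow_pos hg _)
      rw [heq]
      calc n ≤ K * (g * g ^ (d - 1)) := by rw [← hgs]; exact hnK
        _ ≤ K * ((2 * K₂ * cross d * D) * g ^ (d - 1)) := by gcongr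
        _ = (2 * K * K₂ * cross d) * (D * g ^ (d - 1)) := by ring
        _ ≤ C₃ * (D * g ^ (d - 1)) := by
            refine Nat.mul_le_mul_right _ ?_
            rw [hC₃]
            rcases Nat.eq_zero_or_pos K with h | h
            · simp [h]
            · have : 2 * K * K₂ * cross d ≤ 2 * K * K₂ * cross d * K := Nat.le_mul_of_pos_right _ h
              omega
        _ = _ := by ring
  set M := K * (g / r + 1) ^ d with hMdef
  have hinc := incidences (by omega) hL hr1 hbox hline hind (D := D) (M := M)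
    hmax (hcell r hr1 hrg)
  rw [← hndef] at hinc
  have hhalf : 4 * (D * (2 * d * (cross d * r ^ (d - 1)))) ≤ n :=
    le_trans (le_trans (le_of_eq (by ring)) (Nat.mul_le_mul_right (D * r ^ (d - 1))
      (show 8 * d * cross d ≤ C₁ by omega))) (le_trans (le_of_eq (by ring)) hrn)
  have hmain : n ^ 2 ≤ 4 * 2 ^ d * R * (r ^ d * M ^ d) := by
    obtain ⟨m, hm⟩ : ∃ m, n = m + 1 := ⟨n - 1, by omega⟩
    rw [hm] at hinc hhalf ⊢
    simp only [Nat.add_sub_cancel] at hinc
    have := Nat.mul_le_mul_left (m + 1) hhalf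
    have : m + 1 ≤ 2 * m := by omega
    nlinarith
  -- substitute the cell bound
  have hM : (r ^ d) ^ d * M ^ d ≤ K₂ ^ d * n ^ d := by
    rw [← mul_pow, ← mul_pow]
    refine Nat.pow_le_pow_left ?_ _
    rw [hMdef, mul_left_comm, hK₂, mul_assoc]
    exact Nat.mul_le_mul_left _ ((hscale r hr1 hrg).trans (Nat.mul_le_mul_left _ hgd))
  have he : (r ^ d) ^ d = r ^ d * (r ^ (d - 1)) ^ d := by
    rw [← mul_pow, ← pow_succ', Nat.sub_add_cancel (by omega)]
  have hfin : n ^ 2 * (r ^ (d - 1)) ^ d ≤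
      (4 * 2 ^ d * K₂ ^ d * C₃ ^ d) * R * D ^ d * (r ^ (d - 1)) ^ d := by
    calc n ^ 2 * (r ^ (d - 1)) ^ d ≤ 4 * 2 ^ d * R * (r ^ d * M ^ d) * (r ^ (d - 1)) ^ d :=
          Nat.mul_le_mul_right _ hmain
      _ = 4 * 2 ^ d * R * ((r ^ d) ^ d * M ^ d) := by rw [he]; ring
      _ ≤ 4 * 2 ^ d * R * (K₂ ^ d * n ^ d) := Nat.mul_le_mul_left _ hM
      _ ≤ 4 * 2 ^ d * R * (K₂ ^ d * (C₃ * D * r ^ (d - 1)) ^ d) := by gcongr
      _ = _ := by rw [mul_pow, mul_pow]; ring
  refine (Nat.le_of_mul_le_mul_right hfin (pow_pos (pow_pos hr1 _) _)).trans ?_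
  gcongr
  exact Nat.le_add_left _ _

end Vale.Agent.P054.Homog
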